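import Vale.Agent.P237.Quant.TailData.N36.tailN36N1Part0
import Vale.Agent.P237.Quant.TailData.N36.tailN36N1Part1
import Vale.Agent.P237.Quant.TailData.N36.tailN36N1Part2
import Vale.Agent.P237.Quant.TailData.N36.tailN36N1Part3
import Vale.Agent.P237.Quant.TailData.N36.tailN36N1Part4
import Vale.Agent.P237.Quant.TailData.N36.tailN36N1Part5

/-!
Tail calibration tailN36N1 in dimension 36. The check. Generated data, checked by the kernel.
-/

set_option maxRecDepth 100000
set_option linter.all false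

namespace Vale.Agent.P237.Quant.TailData

open TailCert


/-- The calibration. -/
noncomputable def tailN36N1 : Cfg :=
  tailN36N1Base.withIvals (List.flatten [tailN36N1L0, tailN36N1L1, tailN36N1L2, tailN36N1L3, tailN36N1L4, tailN36N1L5, tailN36N1L6, tailN36N1L7, tailN36N1L8, tailN36N1L9, tailN36N1L10, tailN36N1L11, tailN36N1L12, tailN36N1L13, tailN36N1L14, tailN36N1L15, tailN36N1L16, tailN36N1L17, tailN36N1L18, tailN36N1L19, tailN36N1L20])

theorem tailN36N1_parts : [tailN36N1L0, tailN36N1L1, tailN36N1L2, tailN36N1L3, tailN36N1L4, tailN36N1L5, tailN36N1L6, tailN36N1L7, tailN36N1L8, tailN36N1L9, tailN36N1L10, tailN36N1L11, tailN36N1L12, tailN36N1L13, tailN36N1L14, tailN36N1L15, tailN36N1L16, tailN36N1L17, tailN36N1L18, tailN36N1L19, tailN36N1L20].Forall fun l => tailN36N1Base.partUsed tailN36N1Used l = true := by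
  simp only [List.forall_cons, List.Forall]
  exact ⟨tailN36N1L0_ok, tailN36N1L1_ok, tailN36N1L2_ok, tailN36N1L3_ok, tailN36N1L4_ok, tailN36N1L5_ok, tailN36N1L6_ok, tailN36N1L7_ok, tailN36N1L8_ok, tailN36N1L9_ok, tailN36N1L10_ok, tailN36N1L11_ok, tailN36N1L12_ok, tailN36N1L13_ok, tailN36N1L14_ok, tailN36N1L15_ok, tailN36N1L16_ok, tailN36N1L17_ok, tailN36N1L18_ok, tailN36N1L19_ok, tailN36N1L20_ok⟩

theorem tailN36N1_check : tailN36N1.check = true :=
  Cfg.check_of_parts (by decide +kernel) tailN36N1_parts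

end Vale.Agent.P237.Quant.TailData
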