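import Vale.Agent.P237.Quant.TailData.N36.tailN36P3Part0
import Vale.Agent.P237.Quant.TailData.N36.tailN36P3Part1
import Vale.Agent.P237.Quant.TailData.N36.tailN36P3Part2
import Vale.Agent.P237.Quant.TailData.N36.tailN36P3Part3
import Vale.Agent.P237.Quant.TailData.N36.tailN36P3Part4

/-!
Tail calibration tailN36P3 in dimension 36. The check. Generated data, checked by the kernel.
-/

set_option maxRecDepth 100000
set_option linter.all false

namespace Vale.Agent.P237.Quant.TailData

open TailCert


/-- The calibration. -/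
noncomputable def tailN36P3 : Cfg :=
  tailN36P3Base.withIvals (List.flatten [tailN36P3L0, tailN36P3L1, tailN36P3L2, tailN36P3L3, tailN36P3L4, tailN36P3L5, tailN36P3L6, tailN36P3L7, tailN36P3L8, tailN36P3L9, tailN36P3L10, tailN36P3L11, tailN36P3L12, tailN36P3L13, tailN36P3L14, tailN36P3L15, tailN36P3L16])

theorem tailN36P3_parts : [tailN36P3L0, tailN36P3L1, tailN36P3L2, tailN36P3L3, tailN36P3L4, tailN36P3L5, tailN36P3L6, tailN36P3L7, tailN36P3L8, tailN36P3L9, tailN36P3L10, tailN36P3L11, tailN36P3L12, tailN36P3L13, tailN36P3L14, tailN36P3L15, tailN36P3L16].Forall fun l => tailN36P3Base.partUsed tailN36P3Used l = true := by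
  simp only [List.forall_cons, List.Forall]
  exact ⟨tailN36P3L0_ok, tailN36P3L1_ok, tailN36P3L2_ok, tailN36P3L3_ok, tailN36P3L4_ok, tailN36P3L5_ok, tailN36P3L6_ok, tailN36P3L7_ok, tailN36P3L8_ok, tailN36P3L9_ok, tailN36P3L10_ok, tailN36P3L11_ok, tailN36P3L12_ok, tailN36P3L13_ok, tailN36P3L14_ok, tailN36P3L15_ok, tailN36P3L16_ok⟩

theorem tailN36P3_check : tailN36P3.check = true :=
  Cfg.check_of_parts (by decide +kernel) tailN36P3_parts

end Vale.Agent.P237.Quant.TailData
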